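import Mathlib
import Vale.Agent.P064.Defs
import Vale.Agent.P064.Graph
import Vale.Agent.P064.Spread

/-!
P064: the second Kahn–Kalai conjecture.  `p̃_E(n,H) ≤ C p_E(n,H)` and
`p_c(n,H) ≤ C p_E(n,H) log n` for all `n ≥ 2` and all `H`, with a universal constant.
-/

open scoped Pointwise
open Finset MeasureTheory

namespace Vale.Agent.Results.P064.KahnKalaiSecond

open Vale.Agent.P064

attribute [local instance] pairAction

/-- the spread constant -/
noncomputable def spreadConst : ℝ := 2 * Real.exp 48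

lemma spreadConst_pos : 0 < spreadConst := by unfold spreadConst; positivity

lemma size_le (m : ℕ) (hm : 1 ≤ m) : (m.size : ℝ) ≤ 2 * (1 + Real.log m) := by
  have hs : 0 < m.size := Nat.size_pos.2 hm
  have h2 : (2 : ℕ) ^ (m.size - 1) ≤ m := Nat.lt_size.1 (by omega)
  have h2' : (2 : ℝ) ^ (m.size - 1) ≤ m := by exact_mod_cast h2
  have h3 := Real.log_le_log (by positivity) h2'
  rw [Real.log_pow] at h3
  have h4 : ((m.size - 1 : ℕ) : ℝ) = (m.size : ℝ) - 1 := by
    rw [Nat.cast_sub (by omega)]; simp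
  rw [h4] at h3
  have h5 := Real.log_two_gt_d9
  have h6 : (1 : ℝ) ≤ m.size := by exact_mod_cast hs
  have h7 : ((m.size : ℝ) - 1) * (1 / 2) ≤ Real.log m :=
    le_trans (mul_le_mul_of_nonneg_left (by linarith) (by linarith)) h3
  linarith

/-- bounds from one admissible density -/
lemma one_density {n : ℕ} {V : Type} [Fintype V] (H : SimpleGraph V) (hcard : Fintype.card V ≤ n)
    (hne : H.edgeSet.Nonempty) {q : ℝ}
    (hq : ∃ h : q ∈ Set.Icc (0 : ℝ) 1,
      ∀ F : H.Subgraph, 1 / 2 ≤ expCopies n ⟨q, h⟩ F.coe) :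
    pCrit n H ≤ (H.edgeSet.ncard.size : ℝ) * (16384 * spreadConst) * q ∧
      pExpTilde n H ≤ spreadConst * q := by
  classical
  obtain ⟨hqI, hqF⟩ := hq
  obtain ⟨ι⟩ : Nonempty (V ↪ Fin n) :=
    Function.Embedding.nonempty_of_card_le (by simpa using hcard)
  have hq0 : 0 < q := pos_of_exp H hne ⟨q, hqI⟩ hqF
  have hG : Good (Equiv.Perm (Fin n)) q (hostEdges H ι) := good_of_exp H ι ⟨q, hqI⟩ hqF
  have hm : (hostEdges H ι).card = H.edgeSet.ncard := by
    rw [hostEdges, Finset.card_map, Set.ncard_eq_toFinset_card]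
  have hm1 : 1 ≤ H.edgeSet.ncard := (Set.ncard_pos (Set.toFinite _)).2 hne
  set m := H.edgeSet.ncard with hm_def
  set σ := spreadConst * q with hσdef
  have hσpos : 0 < σ := mul_pos spreadConst_pos hq0
  have hspread : ∀ S : Finset (Sym2 (Fin n)),
      (cnt (G := Equiv.Perm (Fin n)) (hostEdges H ι) S : ℝ) ≤
        (Fintype.card (Equiv.Perm (Fin n)) : ℝ) * σ ^ S.card := by
    intro S
    rw [hσdef, spreadConst]
    exact Spread.cnt_le_spread hq0 hG S
  constructor
  · set p := 16384 * σ with hp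
    have hbd : BddBelow {p : ℝ | ∃ h : p ∈ Set.Icc (0 : ℝ) 1, 1 / 2 ≤
        (SimpleGraph.binomialRandom (Fin n) ⟨p, h⟩).real {G | H.IsContained G}} :=
      ⟨0, fun x ⟨h, _⟩ => h.1⟩
    have hrhs : (m.size : ℝ) * p ≤ (m.size : ℝ) * (16384 * spreadConst) * q := by
      rw [hp, hσdef]; exact le_of_eq (by ring)
    by_cases hp1 : p ≤ 1
    · have hσp : σ / p ≤ (1 / 2 : ℝ) ^ 14 := by
        rw [hp]; field_simp; norm_num
      have hj : (hostEdges H ι).card < 2 ^ m.size := by rw [hm]; exact Nat.lt_size_self m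
      obtain ⟨h, hh⟩ := contains_prob H ι σ p (by positivity) hp1 hσpos.le hσp m.size hj hspread
      refine le_trans (csInf_le hbd ⟨h, hh⟩) (le_trans ?_ hrhs)
      exact (dens_mem (by positivity) hp1 m.size).2.2
    · rw [not_le] at hp1
      have hone : pCrit n H ≤ 1 := by
        refine csInf_le hbd ⟨⟨zero_le_one, le_rfl⟩, ?_⟩
        have hc : H.IsContained (⊤ : SimpleGraph (Fin n)) :=
          ⟨⟨⟨fun a => ι a, fun {a b} h => by simpa using h.ne⟩, ι.injective⟩⟩
        have h1 : (⟨1, ⟨zero_le_one, le_rfl⟩⟩ : unitInterval) = 1 := rfl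
        rw [h1, SimpleGraph.binomialRandom_one, measureReal_def]
        simp [hc]
        norm_num
      refine hone.trans (le_trans ?_ hrhs)
      have hsz : (1 : ℝ) ≤ m.size := by exact_mod_cast Nat.size_pos.2 hm1
      exact le_trans hp1.le (le_mul_of_one_le_left (by linarith) hsz)
  · set b := min σ 1 with hb
    have hbI : b ∈ Set.Icc (0 : ℝ) 1 := ⟨le_min hσpos.le zero_le_one, min_le_right _ _⟩
    have hspread' : ∀ S : Finset (Sym2 (Fin n)),
        (cnt (G := Equiv.Perm (Fin n)) (hostEdges H ι) S : ℝ) ≤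
          (Fintype.card (Equiv.Perm (Fin n)) : ℝ) * b ^ S.card := by
      intro S
      rcases le_total σ 1 with h | h
      · rw [hb, min_eq_left h]; exact hspread S
      · rw [hb, min_eq_right h, one_pow, mul_one]
        exact_mod_cast Finset.card_le_univ _
    have hmem : b ∈ {p : ℝ | ∃ h : p ∈ Set.Icc (0 : ℝ) 1,
        ∀ F : H.Subgraph, (H.copyCount F.coe : ℝ) / 2 ≤ expCopies n ⟨p, h⟩ F.coe} := by
      refine ⟨hbI, fun F => ?_⟩
      have := copyCount_le_exp H ι ⟨b, hbI⟩ hspread' F.coe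
      have h0 : (0 : ℝ) ≤ (H.copyCount F.coe : ℝ) := Nat.cast_nonneg _
      linarith
    refine le_trans (csInf_le ⟨0, fun x ⟨h, _⟩ => h.1⟩ hmem) ?_
    exact (min_le_left _ _).trans (le_of_eq hσdef)

/-- For a universal `C`: `p_c(n,H) ≤ C p_E(n,H) log n`, `p̃_E(n,H) ≤ C p_E(n,H)` and
`p_c(n,H) ≤ C p_E(n,H) (1 + log e(H))`. -/
theorem result : ∃ C : ℝ, 0 < C ∧ ∀ n : ℕ, 2 ≤ n →
    ∀ (V : Type) [Fintype V] (H : SimpleGraph V),
      Fintype.card V ≤ n → H.edgeSet.Nonempty →
        pCrit n H ≤ C * pExp n H * Real.log n ∧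
        pExpTilde n H ≤ C * pExp n H ∧
        pCrit n H ≤ C * pExp n H * (1 + Real.log (H.edgeSet.ncard : ℝ)) := by
  classical
  refine ⟨131072 * spreadConst, mul_pos (by norm_num) spreadConst_pos,
    fun n hn V _ H hcard hne => ?_⟩
  set m := H.edgeSet.ncard with hm
  have hm1 : 1 ≤ m := (Set.ncard_pos (Set.toFinite _)).2 hne
  obtain ⟨ι⟩ : Nonempty (V ↪ Fin n) :=
    Function.Embedding.nonempty_of_card_le (by simpa using hcard)
  have hmn : m ≤ n * n := by
    have hm' : (hostEdges H ι).card = m := by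
      rw [hostEdges, Finset.card_map, hm, Set.ncard_eq_toFinset_card]
    rw [← hm']
    refine (card_le_card (hostEdges_subset_all H ι)).trans ?_
    rw [allEdges_card]
    exact (Nat.choose_le_pow n 2).trans (le_of_eq (by ring))
  have hsz := size_le m hm1
  have hlog0 : 0 ≤ Real.log n := Real.log_natCast_nonneg n
  have hlm0 : 0 ≤ Real.log (m : ℝ) := Real.log_natCast_nonneg m
  have hln2 : Real.log 2 ≤ Real.log n := Real.log_le_log (by norm_num) (by exact_mod_cast hn)
  have hlm : Real.log (m : ℝ) ≤ Real.log n + Real.log n := by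
    rw [← Real.log_mul (by positivity) (by positivity)]
    exact Real.log_le_log (by exact_mod_cast hm1) (by exact_mod_cast hmn)
  have hone : (1 : ℝ) ∈ {p : ℝ | ∃ h : p ∈ Set.Icc (0 : ℝ) 1,
      ∀ F : H.Subgraph, 1 / 2 ≤ expCopies n ⟨p, h⟩ F.coe} := by
    refine ⟨⟨zero_le_one, le_rfl⟩, fun F => ?_⟩
    let f : SimpleGraph.Copy F.coe (⊤ : SimpleGraph (Fin n)) :=
      ⟨⟨fun a => ι a, fun {a b} h => by simpa using fun hh => h.ne (Subtype.ext hh)⟩,
        ι.injective.comp Subtype.val_injective⟩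
    rw [expCopies_eq]
    simp only [one_pow, Finset.sum_const, nsmul_eq_mul, mul_one]
    have : 1 ≤ (topCopies n F.coe).card :=
      card_pos.2 ⟨f.toSubgraph, mem_topCopies.2 ⟨f.isoToSubgraph⟩⟩
    have : (1 : ℝ) ≤ (topCopies n F.coe).card := by exact_mod_cast this
    linarith
  have hne' : Set.Nonempty {p : ℝ | ∃ h : p ∈ Set.Icc (0 : ℝ) 1,
      ∀ F : H.Subgraph, 1 / 2 ≤ expCopies n ⟨p, h⟩ F.coe} := ⟨1, hone⟩
  have hE0 : 0 ≤ pExp n H := le_csInf hne' fun x ⟨h, _⟩ => h.1
  have hK1 : 0 < spreadConst := spreadConst_pos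
  have hsz0 : (0 : ℝ) < m.size := by exact_mod_cast Nat.size_pos.2 hm1
  have hc : pCrit n H ≤ (m.size : ℝ) * (16384 * spreadConst) * pExp n H := by
    rw [← div_le_iff₀' (by positivity)]
    refine le_csInf hne' fun q hq => ?_
    rw [div_le_iff₀' (by positivity)]
    exact (one_density H hcard hne hq).1
  have ht : pExpTilde n H ≤ spreadConst * pExp n H := by
    rw [← div_le_iff₀' (by positivity)]
    refine le_csInf hne' fun q hq => ?_
    rw [div_le_iff₀' (by positivity)]
    exact (one_density H hcard hne hq).2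
  have aux : ∀ S : ℝ, (m.size : ℝ) ≤ 8 * S →
      pCrit n H ≤ 131072 * spreadConst * pExp n H * S := by
    intro S hS
    calc pCrit n H ≤ (m.size : ℝ) * (16384 * spreadConst) * pExp n H := hc
      _ ≤ 8 * S * (16384 * spreadConst) * pExp n H := by gcongr
      _ = _ := by ring
  refine ⟨aux _ (by linarith [Real.log_two_gt_d9]), ?_, aux _ (by linarith)⟩
  calc pExpTilde n H ≤ spreadConst * pExp n H := ht
    _ ≤ 131072 * spreadConst * pExp n H := by
        gcongr
        linarith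

end Vale.Agent.Results.P064.KahnKalaiSecond
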